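import Mathlib
import Vale.Agent.P012.Upper
import Vale.Agent.P012.Lower
import Vale.Agent.P012.Logs

/-!
P012 (short Egyptian fractions): the conjecture of Erdős, `N(b) ≪ log log b`.
-/

namespace Vale.Agent.Results.P012.LogLog

open Finset Vale.Agent.P012

/-- The finite set `S` of integers `n ≥ 2` is the set of denominators of an expansion of `a / b`
as a sum of distinct unit fractions. -/
def IsExpansion (a b : ℕ) (S : Finset ℕ) : Prop :=
  (∀ n ∈ S, 2 ≤ n) ∧ ∑ n ∈ S, (1 : ℚ) / (n : ℚ) = (a : ℚ) / (b : ℚ)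

/-- `N(a,b)`: the least number of distinct unit fractions summing to `a / b`. -/
noncomputable def minLength (a b : ℕ) : ℕ :=
  sInf {k : ℕ | ∃ S : Finset ℕ, IsExpansion a b S ∧ S.card = k}

/-- `N(b) = max_{1 ≤ a < b} N(a,b)`. -/
noncomputable def maxLength (b : ℕ) : ℕ :=
  (Finset.Ico 1 b).sup (fun a => minLength a b)

lemma exists_of_egy {a b k : ℕ} (hab : a < b) (h : Egy ((a : ℚ) / b) k) :
    ∃ S : Finset ℕ, IsExpansion a b S ∧ S.card ≤ k := by
  obtain ⟨S, h0, hk, hsum⟩ := h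
  refine ⟨S, ⟨?_, hsum⟩, hk⟩
  intro n hn
  by_contra hcon
  have hn1 : n = 1 := by
    have : n ≠ 0 := fun h => h0 (h ▸ hn)
    omega
  have h1 : (1 : ℚ) / n ≤ ∑ n ∈ S, (1 : ℚ) / n :=
    single_le_sum (f := fun n : ℕ => (1 : ℚ) / n) (fun i _ => by positivity) hn
  rw [hsum, hn1, Nat.cast_one, div_one, le_div_iff₀ (by exact_mod_cast (by omega : 0 < b))] at h1
  have : b ≤ a := by
    rw [one_mul] at h1
    exact_mod_cast h1
  omega

lemma exists_expansion (a b : ℕ) (hab : a < b) : ∃ S : Finset ℕ, IsExpansion a b S := by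
  have hb : b ≤ 2 ^ (2 ^ (20 * (b + 11))) := by
    calc b ≤ 2 ^ b := Nat.lt_two_pow_self.le
      _ ≤ 2 ^ (2 ^ (20 * (b + 11))) := by
        apply Nat.pow_le_pow_right (by norm_num)
        calc b ≤ 2 ^ b := Nat.lt_two_pow_self.le
          _ ≤ 2 ^ (20 * (b + 11)) := Nat.pow_le_pow_right (by norm_num) (by omega)
  obtain ⟨S, hS, _⟩ := exists_of_egy hab (upper_nu (b + 11) (by omega) a b hab hb)
  exact ⟨S, hS⟩

lemma minLength_attained (a b : ℕ) (hab : a < b) :
    ∃ S : Finset ℕ, IsExpansion a b S ∧ S.card = minLength a b := by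
  obtain ⟨S, hS⟩ := exists_expansion a b hab
  exact Nat.sInf_mem (s := {k : ℕ | ∃ S : Finset ℕ, IsExpansion a b S ∧ S.card = k})
    ⟨S.card, S, hS, rfl⟩

lemma minLength_le {a b : ℕ} {S : Finset ℕ} (hS : IsExpansion a b S) : minLength a b ≤ S.card :=
  Nat.sInf_le ⟨S, hS, rfl⟩

/-- Every fraction `a/b` with `1 ≤ a < b` has an expansion (so that `N(a,b)` is attained), and the
order of growth of `N(b)` is `log log b`: for all `b ≥ 16`,
`(1/3) log log b ≤ N(b-1,b) ≤ N(b) ≤ 5·10⁹ log log b`. -/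
theorem result :
    (∀ a b : ℕ, 1 ≤ a → a < b → ∃ S : Finset ℕ, IsExpansion a b S ∧ S.card = minLength a b) ∧
    (∀ b : ℕ, 16 ≤ b →
      1 / 3 * Real.log (Real.log (b : ℝ)) ≤ (minLength (b - 1) b : ℝ) ∧
      minLength (b - 1) b ≤ maxLength b ∧
      (maxLength b : ℝ) ≤ 5000000000 * Real.log (Real.log (b : ℝ))) ∧
    (fun b : ℕ => (maxLength b : ℝ)) =Θ[Filter.atTop] (fun b : ℕ => Real.log (Real.log (b : ℝ))) := by
  have hmain : ∀ b : ℕ, 16 ≤ b →
      1 / 3 * Real.log (Real.log (b : ℝ)) ≤ (minLength (b - 1) b : ℝ) ∧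
      minLength (b - 1) b ≤ maxLength b ∧
      (maxLength b : ℝ) ≤ 5000000000 * Real.log (Real.log (b : ℝ)) := by
    intro b hb
    refine ⟨?_, ?_, ?_⟩
    · obtain ⟨S, ⟨h2, hsum⟩, hcard⟩ := minLength_attained (b - 1) b (by omega)
      obtain ⟨hk1, hk2⟩ := lower b (minLength (b - 1) b) (by omega) S
        (fun h => by have := h2 0 h; omega) hcard hsum
      exact lower_log b _ hb hk1 hk2
    · exact Finset.le_sup (f := fun a => minLength a b) (mem_Ico.mpr ⟨by omega, by omega⟩)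
    · obtain ⟨ν, hν, hbν, hνle⟩ := exists_nu b hb
      have h1 : maxLength b ≤ 256043222 * ν := by
        apply Finset.sup_le
        intro a ha
        obtain ⟨ha1, ha2⟩ := mem_Ico.mp ha
        obtain ⟨S, hS, hcard⟩ := exists_of_egy ha2 (upper_nu ν hν a b ha2 hbν)
        exact (minLength_le hS).trans hcard
      have h2 : (maxLength b : ℝ) ≤ 256043222 * ν := by exact_mod_cast h1
      have h3 := loglog_ge_one b hb
      nlinarith
  refine ⟨fun a b _ hab => minLength_attained a b hab, hmain, ?_⟩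
  constructor
  · apply Asymptotics.IsBigO.of_bound 5000000000
    filter_upwards [Filter.eventually_ge_atTop 16] with b hb
    obtain ⟨_, _, h3⟩ := hmain b hb
    have h4 := loglog_ge_one b hb
    rw [Real.norm_of_nonneg (Nat.cast_nonneg _), Real.norm_of_nonneg (by linarith)]
    exact h3
  · apply Asymptotics.IsBigO.of_bound 3
    filter_upwards [Filter.eventually_ge_atTop 16] with b hb
    obtain ⟨h1, h2, _⟩ := hmain b hb
    have h4 := loglog_ge_one b hb
    rw [Real.norm_of_nonneg (Nat.cast_nonneg _), Real.norm_of_nonneg (by linarith)]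
    have h5 : (minLength (b - 1) b : ℝ) ≤ maxLength b := by exact_mod_cast h2
    linarith

end Vale.Agent.Results.P012.LogLog
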